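import Claimed.Agent.R282.S2C.P.Shape

/-!
# 2C / L-L2: regular shapes near a dominant shape, ending at a prescribed regular vector

PLAN.  `k = θ.length ≥ 1`, `μ = θ.sum`.  Fix `κ ∈ (0,1)` small (below).  For `mu'` put
`e = mu' - (1-κ) μ` and `θ' = θ.map (fun v => (1-κ) • v + (1/k) • e)`.  Then `θ'.sum = (1-κ) μ + e = mu'`.
`e` is regular if `mu'` is regular and close to `μ`: for `β > 0` with `β·μ = 0`: `β·e = β·mu' > 0`;
with `β·μ > 0`: `β·e = β·(mu' - μ) + κ β·μ > 0` as soon as `|β·(mu' - μ)| < κ m₀`,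
`m₀ = min {β·μ : β > 0, β·μ > 0}` (finite set; if empty any bound).  `|β·x| ≤ (∑_i |β_i|) dist x 0`.
So `θ'_j = (1-κ) θ_j + e/k` is `Cham + Reg = Reg`.
Distance: `θ'_j - θ_j = -κ θ_j + (mu' - μ)/k + κ μ / k`: choose `κ` with `κ (‖θ_j‖ + ‖μ‖) < ε/2` for all `j`,
then `δ ≤ ε/2` and `δ (∑|β_i|) < κ m₀`.  For `j ≥ k` both `getD` are `0`.
Size: ~250 lines.
-/

set_option autoImplicit false

namespace Claimed.Agent.R282.RDatum

variable {n : ℕ} (D : RDatum n)

theorem c2l2_sum_map (θ : Shape n) (a : ℝ) (c : Vec n) :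
    (θ.map fun v => a • v + c).sum = a • θ.sum + (θ.length : ℝ) • c := by
  induction θ with
  | nil => simp
  | cons v θ ih =>
    rw [List.map_cons, List.sum_cons, ih, List.sum_cons, List.length_cons, Nat.cast_add, Nat.cast_one]
    module

theorem c2l2_abs_dot_le (x β : Vec n) : |dot x β| ≤ ‖x‖ * ∑ i, |β i| := by
  unfold dot
  rw [Finset.mul_sum]
  refine (Finset.abs_sum_le_sum_abs _ _).trans (Finset.sum_le_sum fun i _ => ?_)
  rw [abs_mul]
  exact mul_le_mul_of_nonneg_right (norm_le_pi_norm x i) (abs_nonneg _)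

/-- (L2) -/
theorem shape_approx (θ : Shape n) (hne : θ ≠ []) (hθ : ∀ v ∈ θ, D.Cham v) (ε : ℝ) (hε : 0 < ε) :
    ∃ δ > 0, ∀ mu' : Vec n, D.Reg mu' → dist mu' θ.sum < δ →
      ∃ θ' : Shape n, θ'.length = θ.length ∧ (∀ v ∈ θ', D.Reg v) ∧ θ'.sum = mu' ∧
        ∀ j, dist (θ'.getD j 0) (θ.getD j 0) < ε := by
  have hk : 0 < θ.length := List.length_pos_iff.2 hne
  have hk' : (1 : ℝ) ≤ (θ.length : ℝ) := by exact_mod_cast hk
  have hk0 : (0 : ℝ) < (θ.length : ℝ) := by linarith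
  have hμ : D.Cham θ.sum := D.cham_sum hθ
  -- the constants
  set B : ℝ := (θ.map fun v => ‖v‖).sum + ‖θ.sum‖ + 1 with hB
  have hsum0 : 0 ≤ (θ.map fun v => ‖v‖).sum := by
    apply List.sum_nonneg
    intro r hr
    obtain ⟨v, _, rfl⟩ := List.mem_map.1 hr
    exact norm_nonneg v
  have hB1 : 1 ≤ B := by
    have := norm_nonneg θ.sum
    linarith
  have hBv : ∀ v ∈ θ, ‖v‖ ≤ B := by
    intro v hv
    have h1 : ‖v‖ ≤ (θ.map fun v => ‖v‖).sum := by
      apply List.single_le_sum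
      · intro r hr
        obtain ⟨w, _, rfl⟩ := List.mem_map.1 hr
        exact norm_nonneg w
      · exact List.mem_map.2 ⟨v, hv, rfl⟩
    have := norm_nonneg θ.sum
    linarith
  have hBμ : ‖θ.sum‖ ≤ B := by linarith
  set κ : ℝ := min (1 / 2) (ε / (4 * B)) with hκ
  have hκ0 : 0 < κ := lt_min (by norm_num) (by positivity)
  have hκ1 : κ ≤ 1 / 2 := min_le_left _ _
  have hκB : κ * B ≤ ε / 4 := by
    have : κ ≤ ε / (4 * B) := min_le_right _ _
    calc κ * B ≤ ε / (4 * B) * B := mul_le_mul_of_nonneg_right this (by linarith)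
      _ = ε / 4 := by field_simp
  obtain ⟨m₀, hm₀, hm⟩ := c2b_exists_eps D.roots (fun β => dot θ.sum β)
  set S : ℝ := (∑ β ∈ D.roots, ∑ i, |β i|) + 1 with hS
  have hS0 : 0 < S := by
    have : 0 ≤ ∑ β ∈ D.roots, ∑ i, |β i| :=
      Finset.sum_nonneg fun β _ => Finset.sum_nonneg fun i _ => abs_nonneg _
    linarith
  have hSβ : ∀ β ∈ D.roots, ∑ i, |β i| ≤ S := by
    intro β hβ
    have := Finset.single_le_sum (f := fun β : Vec n => ∑ i, |β i|)
      (fun β _ => Finset.sum_nonneg fun i _ => abs_nonneg _) hβ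
    linarith
  refine ⟨min (ε / 4) (κ * m₀ / S), lt_min (by positivity) (by positivity), ?_⟩
  intro mu' hmu' hdist
  rw [dist_eq_norm] at hdist
  have hd1 : ‖mu' - θ.sum‖ < ε / 4 := hdist.trans_le (min_le_left _ _)
  have hd2 : ‖mu' - θ.sum‖ * S < κ * m₀ := by
    have := hdist.trans_le (min_le_right _ _)
    rwa [lt_div_iff₀ hS0] at this
  -- `e` is regular
  have he : D.Reg (mu' - (1 - κ) • θ.sum) := by
    intro β hβ
    rw [dot_sub_left, dot_smul_left]
    by_cases h0 : dot θ.sum β = 0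
    · rw [h0, mul_zero, sub_zero]
      exact hmu' β hβ
    · have h1 := hm β hβ.1 h0
      rw [abs_of_nonneg (hμ β hβ)] at h1
      have h2 := c2l2_abs_dot_le (mu' - θ.sum) β
      have h3 : ‖mu' - θ.sum‖ * ∑ i, |β i| ≤ ‖mu' - θ.sum‖ * S :=
        mul_le_mul_of_nonneg_left (hSβ β hβ.1) (norm_nonneg _)
      have h4 := neg_abs_le (dot (mu' - θ.sum) β)
      rw [dot_sub_left] at h4 h2
      have h5 : κ * m₀ ≤ κ * dot θ.sum β := mul_le_mul_of_nonneg_left h1 hκ0.le
      nlinarith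
  refine ⟨θ.map fun v => (1 - κ) • v + (1 / (θ.length : ℝ)) • (mu' - (1 - κ) • θ.sum),
    List.length_map _, ?_, ?_, ?_⟩
  · intro v' hv'
    obtain ⟨v, hv, rfl⟩ := List.mem_map.1 hv'
    rw [add_comm]
    exact D.reg_add_cham (D.reg_smul (by positivity) he) (D.cham_smul (by linarith) (hθ v hv))
  · rw [c2l2_sum_map, smul_smul, mul_one_div_cancel hk0.ne', one_smul]
    abel
  · intro j
    by_cases hj : j < θ.length
    · rw [List.getD_eq_getElem _ _ (by rw [List.length_map]; exact hj), List.getD_eq_getElem _ _ hj,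
        List.getElem_map, dist_eq_norm]
      have hv := hBv _ (List.getElem_mem hj)
      set v := θ[j] with hvdef
      have e : (1 - κ) • v + (1 / (θ.length : ℝ)) • (mu' - (1 - κ) • θ.sum) - v
          = (-κ) • v + (1 / (θ.length : ℝ)) • (mu' - θ.sum) + (κ / (θ.length : ℝ)) • θ.sum := by
        have : κ / (θ.length : ℝ) = 1 / (θ.length : ℝ) * κ := by ring
        rw [this]
        module
      rw [e]
      have hinv : 1 / (θ.length : ℝ) ≤ 1 := by
        rw [div_le_one hk0]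
        exact hk'
      have hinv0 : 0 ≤ 1 / (θ.length : ℝ) := by positivity
      have n1 : ‖(-κ) • v‖ ≤ ε / 4 := by
        rw [norm_smul, norm_neg, Real.norm_eq_abs, abs_of_pos hκ0]
        exact (mul_le_mul_of_nonneg_left hv hκ0.le).trans hκB
      have n2 : ‖(1 / (θ.length : ℝ)) • (mu' - θ.sum)‖ < ε / 4 := by
        rw [norm_smul, Real.norm_eq_abs, abs_of_nonneg hinv0]
        calc 1 / (θ.length : ℝ) * ‖mu' - θ.sum‖ ≤ 1 * ‖mu' - θ.sum‖ :=
              mul_le_mul_of_nonneg_right hinv (norm_nonneg _)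
          _ < ε / 4 := by rw [one_mul]; exact hd1
      have n3 : ‖(κ / (θ.length : ℝ)) • θ.sum‖ ≤ ε / 4 := by
        rw [norm_smul, Real.norm_eq_abs, abs_of_nonneg (by positivity)]
        have h1 : κ / (θ.length : ℝ) ≤ κ := div_le_self hκ0.le hk'
        calc κ / (θ.length : ℝ) * ‖θ.sum‖ ≤ κ * B :=
              mul_le_mul h1 hBμ (norm_nonneg _) hκ0.le
          _ ≤ ε / 4 := hκB
      have t1 := norm_add_le ((-κ) • v + (1 / (θ.length : ℝ)) • (mu' - θ.sum))
        ((κ / (θ.length : ℝ)) • θ.sum)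
      have t2 := norm_add_le ((-κ) • v) ((1 / (θ.length : ℝ)) • (mu' - θ.sum))
      linarith
    · have hj' : θ.length ≤ j := not_lt.1 hj
      rw [List.getD_eq_default _ _ (by rw [List.length_map]; exact hj'),
        List.getD_eq_default _ _ hj', dist_self]
      exact hε

end Claimed.Agent.R282.RDatum
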