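import Claimed.Agent.R282.S2C.P.Shape

/-!
# 2C / BP-L1: basic schedules pass to the limit (last paragraph of the proof of Prop 2.2 + Cor blocker)

PLAN.  Take `ε = 1/(m+1)`: sequences `lam_m → lam`, `θ_m → θ` (same length, entrywise), `xi_m → xi`, and
`(u0_m, l_m)` basic.  `IndepV l_m` ⇒ `l_m.length ≤ n` (`LinearIndependent.fintype_card_le_finrank`).
Discrete data: `u0_m ∈ W`, the list of roots `l_m.map Prod.snd` (length `≤ n`, entries in the finite set
`roots`), the end frame `w_m ∈ W`: finitely many values ⇒ constant along a subsequence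
(`Finite.exists_infinite_fiber` / pigeonhole, then `Nat.exists_strictMono…`/`Set.Infinite` ordering).
Times: `k` numbers in `[0, T]`: compact ⇒ convergent along a further subsequence
(`IsCompact.tendsto_subseq` in `Fin k → ℝ`, `isCompact_univ_pi`).
Limit object: same `u0`, roots, `w`, limit times.  All data of the state machine are continuous:
by induction on the list, `frame` is constant, `c_m → c` (`Shape.val_tendsto`, continuity of `dot`).
* `times_mem`, `sorted`, `valid` (weak inequalities), `endpoint`: closed conditions (`le_of_tendsto'`, `tendsto_nhds_unique`).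
* `IndepV`: same roots.
* `NoBlockV`: if the four STRICT inequalities hold in the limit for some `a + d = β`, they hold for large `m`
  (`Filter.Tendsto.eventually_gt_const` …), contradicting `NoBlockV` at stage `m`.
Size: ~700 lines; split: subsequence extraction (250) | continuity of the state machine (200) | conclusion (250).
-/

set_option autoImplicit false

open Filter Topology

namespace Claimed.Agent.R282

variable {n : ℕ}

theorem c2l1_reflV_continuous (β : Vec n) : Continuous (fun x : Vec n => reflV β x) := by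
  unfold reflV dot
  fun_prop

theorem c2l1_dot_right (a : Vec n) : Continuous (fun x : Vec n => dot a x) := by
  unfold dot
  fun_prop

/-- joint continuity of `Shape.val` along an arbitrary filter -/
theorem c2l1_val_tendsto {ι : Type} (F : Filter ι) (θ : Shape n) (θS : ι → Shape n) (tS : ι → ℝ)
    (t : ℝ) (hlen : ∀ m, (θS m).length = θ.length)
    (hθ : ∀ j, Tendsto (fun m => (θS m).getD j 0) F (𝓝 (θ.getD j 0)))
    (ht : Tendsto tS F (𝓝 t)) :
    Tendsto (fun m => (θS m).val (tS m)) F (𝓝 (θ.val t)) := by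
  have h : (fun m => (θS m).val (tS m)) = fun m =>
      ∑ j ∈ Finset.range θ.length, (max 0 (min (tS m - j) 1)) • (θS m).getD j 0 := by
    funext m
    rw [Shape.val_eq_sum, hlen]
  rw [h, Shape.val_eq_sum]
  apply tendsto_finsetSum
  intro j _
  apply Filter.Tendsto.smul _ (hθ j)
  apply Filter.Tendsto.max tendsto_const_nhds
  apply Filter.Tendsto.min _ tendsto_const_nhds
  exact ht.sub tendsto_const_nhds

theorem c2l1_sum_tendsto {ι : Type} (F : Filter ι) (θ : Shape n) (θS : ι → Shape n)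
    (hlen : ∀ m, (θS m).length = θ.length)
    (hθ : ∀ j, Tendsto (fun m => (θS m).getD j 0) F (𝓝 (θ.getD j 0))) :
    Tendsto (fun m => (θS m).sum) F (𝓝 θ.sum) := by
  have h : (fun m => (θS m).sum) = fun m =>
      ∑ j ∈ Finset.range θ.length, (θS m).getD j 0 := by
    funext m
    rw [Shape.sum_eq_sum, hlen]
  rw [h, Shape.sum_eq_sum]
  apply tendsto_finsetSum
  intro j _
  exact hθ j

/-- `IndepV` only depends on the list of roots -/
theorem c2l1_indep_congr {l l' : List (ℝ × Vec n)} (h : l.map Prod.snd = l'.map Prod.snd)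
    (hl : IndepV l) : IndepV l' := by
  have hlen : l'.length = l.length := by
    have := congrArg List.length h
    simpa using this.symm
  unfold IndepV at hl ⊢
  have h2 : (fun i : Fin l'.length => (l'.get i).2) =
      (fun i : Fin l.length => (l.get i).2) ∘ (Fin.cast hlen) := by
    funext i
    have e1 : (l'.map Prod.snd)[i.1]? = (l.map Prod.snd)[i.1]? := by rw [h]
    have hi : i.1 < l.length := hlen ▸ i.2
    simp only [List.getElem?_map, List.getElem?_eq_getElem i.2, List.getElem?_eq_getElem hi,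
      Option.map_some, Option.some.injEq] at e1
    simpa using e1
  rw [h2]
  exact hl.comp _ (Fin.cast_injective hlen)

theorem c2l1_indep_length {l : List (ℝ × Vec n)} (hl : IndepV l) : l.length ≤ n := by
  have := LinearIndependent.fintype_card_le_finrank hl
  simpa using this

/-- analytic core: limits of basic schedules along an ultrafilter -/
theorem c2l1_core (D : RDatum n) {ι : Type} (U : Ultrafilter ι) (θs : ι → Shape n) (θ : Shape n)
    (hsum : Tendsto (fun k => (θs k).sum) U (𝓝 θ.sum))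
    (hval : ∀ (s : ι → ℝ) (t : ℝ), Tendsto s U (𝓝 t) →
      Tendsto (fun k => (θs k).val (s k)) U (𝓝 (θ.val t)))
    (T : ℝ) (N : ℕ) (f : Vec n → Vec n) (hf : Continuous f)
    (cs : ι → Vec n) (c : Vec n) (hc : Tendsto cs U (𝓝 c))
    (ls : ι → List (ℝ × Vec n)) (as : ι → ℝ) (a : ℝ) (ha : Tendsto as U (𝓝 a))
    (H : ∀ᶠ k in (U : Filter ι), (ls k).length < N ∧ (∀ p ∈ ls k, p.2 ∈ D.roots) ∧
      (∀ p ∈ ls k, as k ≤ p.1 ∧ p.1 ≤ T) ∧
      (ls k).Pairwise (fun p q => p.1 ≤ q.1) ∧
      swAllV (θs k) (fun S t β => 0 ≤ dot (S.pos (θs k) t) β ∧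
        0 ≤ - dot β (S.frame (θs k).sum)) ⟨f, cs k⟩ (ls k) ∧
      D.NoBlockV (θs k) ⟨f, cs k⟩ (ls k)) :
    ∃ l : List (ℝ × Vec n), (∀ᶠ k in (U : Filter ι), (ls k).map Prod.snd = l.map Prod.snd) ∧
      (∀ p ∈ l, a ≤ p.1 ∧ p.1 ≤ T) ∧ l.Pairwise (fun p q => p.1 ≤ q.1) ∧
      swAllV θ (fun S t β => 0 ≤ dot (S.pos θ t) β ∧ 0 ≤ - dot β (S.frame θ.sum)) ⟨f, c⟩ l ∧
      D.NoBlockV θ ⟨f, c⟩ l ∧
      Continuous (runSwV θ ⟨f, c⟩ l).frame ∧
      (∀ᶠ k in (U : Filter ι),
        (runSwV (θs k) ⟨f, cs k⟩ (ls k)).frame = (runSwV θ ⟨f, c⟩ l).frame) ∧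
      Tendsto (fun k => (runSwV (θs k) ⟨f, cs k⟩ (ls k)).c) U (𝓝 (runSwV θ ⟨f, c⟩ l).c) := by
  induction N generalizing f cs c ls as a with
  | zero =>
    obtain ⟨k, hk⟩ := H.exists
    exact absurd hk.1 (Nat.not_lt_zero _)
  | succ N ih =>
    rcases U.em (fun k => ls k = []) with hnil | hne
    · refine ⟨[], ?_, by simp, List.Pairwise.nil, trivial, trivial, hf, ?_, ?_⟩
      · filter_upwards [hnil] with k hk
        rw [hk]
      · filter_upwards [hnil] with k hk
        rw [hk]; rfl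
      · refine hc.congr' ?_
        filter_upwards [hnil] with k hk
        rw [hk]; rfl
    · set t : ι → ℝ := fun k => ((ls k).headD (0, 0)).1 with ht
      set b : ι → Vec n := fun k => ((ls k).headD (0, 0)).2 with hb
      set l' : ι → List (ℝ × Vec n) := fun k => (ls k).tail with hl'
      have H0 : ∀ᶠ k in (U : Filter ι), ls k = (t k, b k) :: l' k := by
        filter_upwards [hne] with k hk
        cases hls : ls k with
        | nil => exact absurd hls hk
        | cons p q => simp only [ht, hb, hl', hls, List.headD_cons, List.tail_cons]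
      obtain ⟨β, hβ, Hβ⟩ : ∃ β ∈ (D.roots : Set (Vec n)), ∀ᶠ k in (U : Filter ι), b k = β := by
        rw [← Ultrafilter.eventually_exists_mem_iff D.roots.finite_toSet]
        filter_upwards [H, H0] with k hk hk0
        refine ⟨b k, ?_, rfl⟩
        exact hk.2.1 (t k, b k) (by rw [hk0]; simp)
      have H1 : ∀ᶠ k in (U : Filter ι), ls k = (t k, β) :: l' k := by
        filter_upwards [H0, Hβ] with k hk hk2
        rw [← hk2]; exact hk
      have H2 : ∀ᶠ k in (U : Filter ι), (l' k).length < N ∧ (∀ p ∈ l' k, p.2 ∈ D.roots) ∧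
          as k ≤ t k ∧ t k ≤ T ∧
          (∀ p ∈ l' k, t k ≤ p.1 ∧ p.1 ≤ T) ∧ (l' k).Pairwise (fun p q => p.1 ≤ q.1) ∧
          (0 ≤ dot ((⟨f, cs k⟩ : SwState n).pos (θs k) (t k)) β ∧
            0 ≤ - dot β (f (θs k).sum)) ∧
          swAllV (θs k) (fun S t β => 0 ≤ dot (S.pos (θs k) t) β ∧
            0 ≤ - dot β (S.frame (θs k).sum))
            ((⟨f, cs k⟩ : SwState n).stepV (θs k) (t k) β) (l' k) ∧
          (∀ a ∈ D.roots, ∀ d ∈ D.roots, a + d = β →
            ¬ (0 < dot ((⟨f, cs k⟩ : SwState n).pos (θs k) (t k)) a ∧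
              0 < dot ((⟨f, cs k⟩ : SwState n).pos (θs k) (t k)) d ∧
              dot (f (θs k).sum) a < 0 ∧ dot (f (θs k).sum) d < 0)) ∧
          D.NoBlockV (θs k) ((⟨f, cs k⟩ : SwState n).stepV (θs k) (t k) β) (l' k) := by
        filter_upwards [H, H1] with k hk hk1
        obtain ⟨h0, h1, h2, h3, h4, h5⟩ := hk
        rw [hk1] at h0 h1 h2 h3 h4 h5
        rw [List.pairwise_cons] at h3
        have h6 := h2 (t k, β) (by simp)
        refine ⟨by simpa using h0, fun p hp => h1 p (by simp [hp]), h6.1, h6.2,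
          fun p hp => ⟨h3.1 p hp, (h2 p (by simp [hp])).2⟩, h3.2, h4.1, h4.2, h5.1, h5.2⟩
      -- the first time converges
      obtain ⟨τ, hτ⟩ : ∃ τ, Tendsto t U (𝓝 τ) := by
        have hmem : ∀ᶠ k in (U : Filter ι), t k ∈ Set.Icc (a - 1) T := by
          have h1 : ∀ᶠ k in (U : Filter ι), a - 1 < as k :=
            ha.eventually (lt_mem_nhds (by linarith))
          filter_upwards [H2, h1] with k hk hk1
          exact ⟨by linarith [hk.2.2.1], hk.2.2.2.1⟩
        obtain ⟨τ, -, hτ⟩ := (isCompact_Icc (a := a - 1) (b := T)).ultrafilter_le_nhds (U.map t)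
          (by rw [Filter.le_principal_iff]; exact hmem)
        exact ⟨τ, hτ⟩
      have haτ : a ≤ τ := le_of_tendsto_of_tendsto ha hτ (H2.mono fun k hk => hk.2.2.1)
      have hτT : τ ≤ T := le_of_tendsto hτ (H2.mono fun k hk => hk.2.2.2.1)
      have hfv : Tendsto (fun k => f ((θs k).val (t k))) U (𝓝 (f (θ.val τ))) :=
        (hf.tendsto _).comp (hval t τ hτ)
      have hfs : Tendsto (fun k => f (θs k).sum) U (𝓝 (f θ.sum)) :=
        (hf.tendsto _).comp hsum
      have hpos : Tendsto (fun k => (⟨f, cs k⟩ : SwState n).pos (θs k) (t k)) U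
          (𝓝 ((⟨f, c⟩ : SwState n).pos θ τ)) := by
        simp only [SwState.pos]
        exact hc.add hfv
      have hc' : Tendsto (fun k => cs k + dot β (f ((θs k).val (t k))) • β) U
          (𝓝 (c + dot β (f (θ.val τ)) • β)) :=
        hc.add ((((c2l1_dot_right β).tendsto _).comp hfv).smul_const _)
      obtain ⟨l, e1, e2, e3, e4, e5, e6, e7, e8⟩ := ih (fun x => reflV β (f x))
        ((c2l1_reflV_continuous β).comp hf)
        (fun k => cs k + dot β (f ((θs k).val (t k))) • β)
        (c + dot β (f (θ.val τ)) • β) hc' l' t τ hτ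
        (H2.mono fun k hk => ⟨hk.1, hk.2.1, hk.2.2.2.2.1, hk.2.2.2.2.2.1, hk.2.2.2.2.2.2.2.1,
          hk.2.2.2.2.2.2.2.2.2⟩)
      refine ⟨(τ, β) :: l, ?_, ?_, ?_, ⟨⟨?_, ?_⟩, e4⟩, ⟨?_, e5⟩, e6, ?_, ?_⟩
      · filter_upwards [H1, e1] with k hk hk1
        rw [hk, List.map_cons, List.map_cons, hk1]
      · intro p hp
        rcases List.mem_cons.1 hp with rfl | hp
        · exact ⟨haτ, hτT⟩
        · exact ⟨haτ.trans (e2 p hp).1, (e2 p hp).2⟩
      · exact List.pairwise_cons.2 ⟨fun p hp => (e2 p hp).1, e3⟩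
      · exact ge_of_tendsto (((continuous_dot_left β).tendsto _).comp hpos)
          (H2.mono fun k hk => hk.2.2.2.2.2.2.1.1)
      · exact ge_of_tendsto ((((c2l1_dot_right β).tendsto _).comp hfs).neg)
          (H2.mono fun k hk => hk.2.2.2.2.2.2.1.2)
      · intro x hx d hd hxd hcon
        obtain ⟨g1, g2, g3, g4⟩ := hcon
        have k1 := (((continuous_dot_left x).tendsto _).comp hpos).eventually (lt_mem_nhds g1)
        have k2 := (((continuous_dot_left d).tendsto _).comp hpos).eventually (lt_mem_nhds g2)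
        have k3 := (((continuous_dot_left x).tendsto _).comp hfs).eventually (gt_mem_nhds g3)
        have k4 := (((continuous_dot_left d).tendsto _).comp hfs).eventually (gt_mem_nhds g4)
        obtain ⟨k, hk, q1, q2, q3, q4⟩ := (H2.and (k1.and (k2.and (k3.and k4)))).exists
        exact hk.2.2.2.2.2.2.2.2.1 x hx d hd hxd ⟨q1, q2, q3, q4⟩
      · filter_upwards [H1, e7] with k hk hk7
        rw [hk]; exact hk7
      · refine e8.congr' ?_
        filter_upwards [H1] with k hk
        rw [hk]; rfl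

namespace RDatum

variable (D : RDatum n)

/-- (L1) basic schedules pass to the limit -/
theorem basic_limit (lam xi : Vec n) (θ : Shape n)
    (h : ∀ ε > 0, ∃ (lam' : Vec n) (θ' : Shape n) (xi' : Vec n), dist lam' lam < ε ∧
      θ'.length = θ.length ∧ (∀ j, dist (θ'.getD j 0) (θ.getD j 0) < ε) ∧ dist xi' xi < ε ∧
      D.HasBasic lam' θ' xi') :
    D.HasBasic lam θ xi := by
  have hpos : ∀ m : ℕ, (0 : ℝ) < 1 / ((m : ℝ) + 1) := fun m => Nat.one_div_pos_of_nat
  choose lamS θS xiS h1 h2 h3 h4 h5 using fun m : ℕ => h (1 / ((m : ℝ) + 1)) (hpos m)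
  choose u0S lS h6 h7 h8 using h5
  set U : Ultrafilter ℕ := hyperfilter ℕ with hUdef
  have hU : (U : Filter ℕ) ≤ atTop := Nat.hyperfilter_le_atTop
  have hε : Tendsto (fun m : ℕ => 1 / ((m : ℝ) + 1)) atTop (𝓝 0) :=
    tendsto_one_div_add_atTop_nhds_zero_nat
  have hlam : Tendsto lamS U (𝓝 lam) := by
    refine Tendsto.mono_left ?_ hU
    rw [tendsto_iff_dist_tendsto_zero]
    exact squeeze_zero (fun _ => dist_nonneg) (fun m => (h1 m).le) hε
  have hxi : Tendsto xiS U (𝓝 xi) := by
    refine Tendsto.mono_left ?_ hU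
    rw [tendsto_iff_dist_tendsto_zero]
    exact squeeze_zero (fun _ => dist_nonneg) (fun m => (h4 m).le) hε
  have hθ : ∀ j, Tendsto (fun m => (θS m).getD j 0) U (𝓝 (θ.getD j 0)) := by
    intro j
    refine Tendsto.mono_left ?_ hU
    rw [tendsto_iff_dist_tendsto_zero]
    exact squeeze_zero (fun _ => dist_nonneg) (fun m => (h3 m j).le) hε
  have hsum := c2l1_sum_tendsto (U : Filter ℕ) θ θS h2 hθ
  have hval : ∀ (s : ℕ → ℝ) (t : ℝ), Tendsto s U (𝓝 t) →
      Tendsto (fun k => (θS k).val (s k)) U (𝓝 (θ.val t)) :=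
    fun s t hs => c2l1_val_tendsto (U : Filter ℕ) θ θS s t h2 hθ hs
  have hfin : (D.W : Set (Fr n)).Finite := D.finW
  obtain ⟨u0, hu0, Hu0⟩ : ∃ u0 ∈ (D.W : Set (Fr n)), ∀ᶠ k in (U : Filter ℕ), u0S k = u0 := by
    rw [← Ultrafilter.eventually_exists_mem_iff hfin]
    exact Eventually.of_forall fun k => ⟨u0S k, (h6 k).u0_mem, rfl⟩
  choose wS hw1 hw2 using fun k => (h6 k).endpoint
  obtain ⟨w, hw, Hw⟩ : ∃ w ∈ (D.W : Set (Fr n)), ∀ᶠ k in (U : Filter ℕ), wS k = w := by
    rw [← Ultrafilter.eventually_exists_mem_iff hfin]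
    exact Eventually.of_forall fun k => ⟨wS k, hw1 k, rfl⟩
  have hu0c : Continuous (u0 : Vec n → Vec n) := u0.toLinearMap.continuous_of_finiteDimensional
  have hwc : Continuous (w : Vec n → Vec n) := w.toLinearMap.continuous_of_finiteDimensional
  obtain ⟨l, e1, e2, e3, e4, e5, e6, e7, e8⟩ := c2l1_core D U θS θ hsum hval θ.length (n + 1)
    u0 hu0c lamS lam hlam lS (fun _ => 0) 0 tendsto_const_nhds (by
      filter_upwards [Hu0] with k hk
      have g := h6 k
      refine ⟨Nat.lt_succ_of_le (c2l1_indep_length (h7 k)), g.roots_mem, ?_, g.sorted, ?_, ?_⟩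
      · intro p hp
        have := g.times_mem p hp
        rwa [h2 k] at this
      · rw [← hk]; exact g.valid
      · rw [← hk]; exact h8 k)
  obtain ⟨k0, hk0⟩ := e1.exists
  refine ⟨u0, l, ⟨hu0, ?_, e2, e3, e4, w, hw, ?_⟩, c2l1_indep_congr hk0 (h7 k0), e5⟩
  · intro p hp
    have hp2 : p.2 ∈ (lS k0).map Prod.snd := by
      rw [hk0]; exact List.mem_map_of_mem hp
    obtain ⟨q, hq, hq2⟩ := List.mem_map.1 hp2
    rw [← hq2]
    exact (h6 k0).roots_mem q hq
  · have t1 : Tendsto (fun k => (runSwV (θS k) ⟨u0, lamS k⟩ (lS k)).c +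
        (runSwV θ ⟨u0, lam⟩ l).frame ((θS k).val (θ.length : ℝ))) U
        (𝓝 ((runSwV θ ⟨u0, lam⟩ l).pos θ θ.length)) :=
      e8.add ((e6.tendsto _).comp (hval _ _ tendsto_const_nhds))
    have t2 : Tendsto (fun k => w (xiS k)) U (𝓝 (w xi)) := (hwc.tendsto _).comp hxi
    refine tendsto_nhds_unique (t1.congr' ?_) t2
    filter_upwards [Hu0, Hw, e7] with k q1 q2 q3
    have := hw2 k
    rw [q1, q2, h2 k] at this
    rw [← this, ← q3]
    rfl

end RDatum

end Claimed.Agent.R282
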